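import Vale.Agent.P344D17.Br
import Vale.Agent.P344X18.Rec

/-!
# P344: the discrete Fourier transform has circuits of size `o(n log n)`

Linear circuits are finite directed acyclic graphs of gates, as in the problem.
-/

namespace Vale.Agent.Results.P344.AAAGraph

open Vale.Agent.P344D17

theorem result :
    -- (a) on every input the gates of a circuit have uniquely determined values
    (∀ (n : ℕ) (C : Circuit n) (x : Fin n → ℂ), ∃! w, C.IsRun x w) ∧
    -- (b) `L(n)` is the least number of gates of a circuit for `F_n`, and `n ≤ L(n)`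
    (∀ n : ℕ, 2 ≤ n →
      IsLeast {s | ∃ C : Circuit n, C.Computes (F n) ∧ Nat.card C.G = s} (L n) ∧ n ≤ L n) ∧
    -- (c) `L(n) ≤ K n (log n) ^ (1 - 10 ^ (-12))`
    (∃ K : ℝ, ∀ n : ℕ, 2 ≤ n →
      (L n : ℝ) ≤ K * (n * Real.logb 2 n ^ (1 - 1 / 10 ^ 12 : ℝ))) ∧
    -- (d) Q1 is false: no lower bound of order `n log n`
    ¬ ∃ c : ℝ, 0 < c ∧ ∃ N : ℕ, ∀ n : ℕ, N ≤ n → c * (n * Real.logb 2 n) ≤ L n := by
  obtain ⟨K, hK⟩ := Vale.Agent.P344X18.saving
  have hle : ∀ n : ℕ, 2 ≤ n → (L n : ℝ) ≤ Vale.Agent.P344.L n := fun n hn =>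
    Nat.cast_le.2 (Nat.sInf_le (exists_circuit (hK n hn).1))
  refine ⟨fun n C x => C.existsUnique_run x, fun n hn => ?_,
    ⟨K, fun n hn => (hle n hn).trans (hK n hn).2⟩, ?_⟩
  · have hm : L n ∈ {s | ∃ C : Circuit n, C.Computes (F n) ∧ Nat.card C.G = s} :=
      Nat.sInf_mem ⟨_, exists_circuit (hK n hn).1⟩
    refine ⟨⟨hm, fun s hs => Nat.sInf_le hs⟩, ?_⟩
    obtain ⟨C, hC, e⟩ := hm
    exact e ▸ le_card hn C hC
  · rintro ⟨c, hc, N, h⟩
    exact Vale.Agent.P344.R2.H527.no_bound ⟨c, hc, max N 2, fun n hn =>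
      (h n (le_of_max_le_left hn)).trans (hle n (le_of_max_le_right hn))⟩

end Vale.Agent.Results.P344.AAAGraph
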