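import Vale.Agent.P344X18.Rec

/-!
# P344: an explicit power saving for the discrete Fourier transform

`L n` is the complexity of the problem: the least number of gates of a linear circuit for `F_n`,
with unrestricted coefficients and depth.
-/

namespace Vale.Agent.Results.P344.AAPower

open Vale.Agent.P344

theorem result :
    -- (a) for all `n ≥ 2`, some circuit with `L(n)` gates computes `F_n`, and
    -- `L(n) ≤ C n (log n) ^ (1 - 10 ^ (-12))`
    (∃ C : ℝ, ∀ n : ℕ, 2 ≤ n → Computes Set.univ ⊤ (dft n) (L n) ∧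
      (L n : ℝ) ≤ C * (n * Real.logb 2 n ^ (1 - 1 / 10 ^ 12 : ℝ))) ∧
    -- (b) Q1 is false: no lower bound of order `n log n`
    ¬ ∃ c : ℝ, 0 < c ∧ ∃ N : ℕ, ∀ n : ℕ, N ≤ n → c * (n * Real.logb 2 n) ≤ L n :=
  ⟨Vale.Agent.P344X18.saving, Vale.Agent.P344.R2.H527.no_bound⟩

end Vale.Agent.Results.P344.AAPower
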